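import Mathlib

-- ▼ part X261/Rel85/Poin
section

/-!
# Row 261, REL (helper85): the Poincaré inequality on a ball, vector valued
-/

set_option autoImplicit false
set_option linter.unusedSectionVars false

noncomputable section

namespace Crest.Agent.X261.Rel85

open Set Filter Topology MeasureTheory Metric Module
open scoped ENNReal

theorem sq_lintegral_le {α : Type*} [MeasurableSpace α] (μ : Measure α) {f : α → ℝ≥0∞}
    (hf : AEMeasurable f μ) : (∫⁻ a, f a ∂μ) ^ 2 ≤ μ univ * ∫⁻ a, f a ^ 2 ∂μ := by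
  have h := ENNReal.lintegral_mul_le_Lp_mul_Lq μ Real.HolderConjugate.two_two hf
    (g := fun _ => 1) aemeasurable_const
  simp only [Pi.mul_apply, mul_one, ENNReal.one_rpow, lintegral_const, one_mul] at h
  refine (pow_le_pow_left' h 2).trans (le_of_eq ?_)
  rw [mul_pow, ← ENNReal.rpow_natCast, ← ENNReal.rpow_natCast, ← ENNReal.rpow_mul,
    ← ENNReal.rpow_mul, mul_comm]
  norm_num

variable {E : Type*} [NormedAddCommGroup E] [NormedSpace ℝ E] [FiniteDimensional ℝ E]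
  [MeasurableSpace E] [BorelSpace E] (μ : Measure E) [μ.IsAddHaarMeasure]

theorem lint_aff {φ : E → ℝ≥0∞} (hφ : Measurable φ) {P : Set E} (hP : MeasurableSet P) {c : ℝ}
    (hc : 1 / 2 ≤ c) (y : E) (h : ∀ x ∈ P, c • x + y ∈ P) :
    ∫⁻ x in P, φ (c • x + y) ∂μ ≤ 2 ^ finrank ℝ E * ∫⁻ x in P, φ x ∂μ := by
  have hc0 : 0 < c := by linarith
  have h1 : Measurable (P.indicator φ) := hφ.indicator hP
  calc ∫⁻ x in P, φ (c • x + y) ∂μ ≤ ∫⁻ x, P.indicator φ (c • x + y) ∂μ := by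
        rw [← lintegral_indicator hP]
        refine lintegral_mono fun x => ?_
        by_cases hx : x ∈ P
        · rw [indicator_of_mem hx, indicator_of_mem (h x hx)]
        · rw [indicator_of_notMem hx]; exact zero_le
    _ = ∫⁻ x, P.indicator φ (x + y) ∂(μ.map (c • ·)) :=
        (lintegral_map (h1.comp (measurable_add_const y)) (measurable_const_smul c)).symm
    _ = ENNReal.ofReal |(c ^ finrank ℝ E)⁻¹| * ∫⁻ x in P, φ x ∂μ := by
        rw [Measure.map_addHaar_smul μ hc0.ne', lintegral_smul_measure, smul_eq_mul,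
          lintegral_add_right_eq_self, lintegral_indicator hP]
    _ ≤ _ := by
        gcongr
        rw [abs_of_pos (by positivity), ← inv_pow, ENNReal.ofReal_pow (by positivity)]
        gcongr
        rw [← ENNReal.ofReal_ofNat 2]
        exact ENNReal.ofReal_le_ofReal ((inv_le_comm₀ hc0 two_pos).2 (by linarith))

theorem lint_seg {φ : E → ℝ≥0∞} (hφ : Measurable φ) {P : Set E} (hP : MeasurableSet P)
    (hc : Convex ℝ P) :
    ∫⁻ y in P, ∫⁻ x in P, ∫⁻ s in Icc (0 : ℝ) 1, φ (x + s • (y - x)) ∂volume ∂μ ∂μ ≤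
      2 ^ finrank ℝ E * μ P * ∫⁻ x in P, φ x ∂μ := by
  have h1 : ∀ s ∈ Icc (0 : ℝ) 1, ∫⁻ y in P, ∫⁻ x in P, φ (x + s • (y - x)) ∂μ ∂μ ≤
      2 ^ finrank ℝ E * μ P * ∫⁻ x in P, φ x ∂μ := by
    intro s hs
    have h2 : ∀ x ∈ P, ∀ y ∈ P, x + s • (y - x) ∈ P := fun x hx y hy =>
      hc.add_smul_sub_mem hx hy hs
    rcases le_total s (1 / 2) with h | h
    · refine (setLIntegral_mono' hP (g := fun _ => 2 ^ finrank ℝ E * ∫⁻ x in P, φ x ∂μ)
        fun y hy => ?_).trans (le_of_eq ?_)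
      · have h3 : ∀ x, x + s • (y - x) = (1 - s) • x + s • y := fun x => by module
        simp only [h3] at h2 ⊢
        exact lint_aff μ hφ hP (by linarith) _ fun x hx => h3 x ▸ hc.add_smul_sub_mem hx hy hs
      · rw [setLIntegral_const]; ring
    · rw [lintegral_lintegral_swap (by fun_prop)]
      refine (setLIntegral_mono' hP (g := fun _ => 2 ^ finrank ℝ E * ∫⁻ x in P, φ x ∂μ)
        fun x hx => ?_).trans (le_of_eq ?_)
      · have h3 : ∀ y, x + s • (y - x) = s • y + (1 - s) • x := fun y => by module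
        simp only [h3]
        exact lint_aff μ hφ hP h _ fun y hy => h3 y ▸ h2 x hx y hy
      · rw [setLIntegral_const]; ring
  calc _ = ∫⁻ y in P, ∫⁻ s in Icc (0 : ℝ) 1, ∫⁻ x in P, φ (x + s • (y - x)) ∂μ ∂volume ∂μ :=
        lintegral_congr fun y => lintegral_lintegral_swap (by fun_prop)
    _ = ∫⁻ s in Icc (0 : ℝ) 1, ∫⁻ y in P, ∫⁻ x in P, φ (x + s • (y - x)) ∂μ ∂μ ∂volume := by
        refine lintegral_lintegral_swap (Measurable.aemeasurable ?_)
        exact Measurable.lintegral_prod_right'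
          (f := fun p : (E × ℝ) × E => φ (p.2 + p.1.2 • (p.1.1 - p.2))) (by fun_prop)
    _ ≤ _ := (setLIntegral_mono' measurableSet_Icc h1).trans (by simp)

variable {H : Type*} [NormedAddCommGroup H] [NormedSpace ℝ H] [CompleteSpace H]

omit [FiniteDimensional ℝ E] [MeasurableSpace E] [BorelSpace E] in
theorem enorm_sub_le_seg {g : E → H} {P : Set E} (hP : IsOpen P) (hc : Convex ℝ P)
    (hg : ContDiffOn ℝ 1 g P) {x y : E} (hx : x ∈ P) (hy : y ∈ P) :
    ‖g y - g x‖ₑ ≤ ‖y - x‖ₑ * ∫⁻ s in Icc (0 : ℝ) 1, ‖fderiv ℝ g (x + s • (y - x))‖ₑ := by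
  have h1 : ∀ s ∈ Icc (0 : ℝ) 1, x + s • (y - x) ∈ P := fun s hs => hc.add_smul_sub_mem hx hy hs
  have h2 := enorm_sub_le_lintegral_deriv_of_contDiffOn_Icc (f := fun s : ℝ => g (x + s • (y - x)))
    (hg.comp (by fun_prop) h1) zero_le_one
  simp only [one_smul, zero_smul, add_zero, add_sub_cancel] at h2
  refine h2.trans ?_
  rw [← lintegral_const_mul' _ _ enorm_ne_top]
  refine setLIntegral_mono' measurableSet_Icc fun s hs => ?_
  have h3 : HasDerivAt (fun s : ℝ => x + s • (y - x)) (y - x) s := by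
    simpa using ((hasDerivAt_id s).smul_const (y - x)).const_add x
  have h4 := (((hg.contDiffAt (hP.mem_nhds (h1 s hs))).differentiableAt
    one_ne_zero).hasFDerivAt.comp_hasDerivAt s h3).deriv
  rw [show (fun s : ℝ => g (x + s • (y - x))) = g ∘ fun s : ℝ => x + s • (y - x) from rfl, h4,
    mul_comm]
  exact ContinuousLinearMap.le_opENorm _ _

/-- the constant of the Poincaré inequality -/
def pc (c : E) (ρ : ℝ) : ℝ≥0∞ :=
  (μ (ball c (ρ / 2)))⁻¹ * ENNReal.ofReal (2 * ρ) ^ 2 * (2 ^ finrank ℝ E * μ (ball c ρ))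

theorem pc_lt_top (c : E) {ρ : ℝ} (hρ : 0 < ρ) : pc μ c ρ < ⊤ := by
  have h1 := (measure_ball_pos μ c (half_pos hρ)).ne'
  have h2 := (measure_ball_lt_top (μ := μ) (x := c) (r := ρ)).ne
  unfold pc
  finiteness

/-- **Poincaré inequality** -/
theorem poin (c : E) {ρ : ℝ} (hρ : 0 < ρ) {g : E → H} (hg : ContDiffOn ℝ 1 g (ball c ρ)) :
    ∫⁻ w in ball c ρ, ‖g w - ⨍ x in ball c (ρ / 2), g x ∂μ‖ₑ ^ 2 ∂μ ≤
      pc μ c ρ * ∫⁻ w in ball c ρ, ‖fderiv ℝ g w‖ₑ ^ 2 ∂μ := by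
  have h1 := (measure_ball_pos μ c (half_pos hρ)).ne'
  have h2 := (measure_ball_lt_top (μ := μ) (x := c) (r := ρ / 2)).ne
  have hs : ball c (ρ / 2) ⊆ ball c ρ := ball_subset_ball (half_le_self hρ.le)
  have hi : IntegrableOn g (ball c (ρ / 2)) μ :=
    ((hg.continuousOn.mono (closedBall_subset_ball (half_lt_self hρ))).integrableOn_compact
      (isCompact_closedBall _ _)).mono_set ball_subset_closedBall
  have hφ : Measurable fun w => ‖fderiv ℝ g w‖ₑ := (measurable_fderiv ℝ g).enorm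
  have h3 : ∀ y ∈ ball c ρ, ‖g y - ⨍ x in ball c (ρ / 2), g x ∂μ‖ₑ ^ 2 ≤
      (μ (ball c (ρ / 2)))⁻¹ * ENNReal.ofReal (2 * ρ) ^ 2 * ∫⁻ x in ball c ρ,
        ∫⁻ s in Icc (0 : ℝ) 1, ‖fderiv ℝ g (x + s • (y - x))‖ₑ ^ 2 ∂volume ∂μ := by
    intro y hy
    have : IsFiniteMeasure (μ.restrict (ball c (ρ / 2))) := ⟨by simpa using h2.lt_top⟩
    have h3 : g y - ⨍ x in ball c (ρ / 2), g x ∂μ =
        (μ.real (ball c (ρ / 2)))⁻¹ • ∫ x in ball c (ρ / 2), (g y - g x) ∂μ := by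
      rw [integral_sub (integrable_const _) hi, setAverage_eq, smul_sub, setIntegral_const,
        inv_smul_smul₀ (by simp [Measure.real, ENNReal.toReal_eq_zero_iff, h1, h2])]
    have h4 : ‖g y - ⨍ x in ball c (ρ / 2), g x ∂μ‖ₑ ≤
        (μ (ball c (ρ / 2)))⁻¹ * ∫⁻ x in ball c (ρ / 2), ‖g y - g x‖ₑ ∂μ := by
      rw [h3, enorm_smul]
      gcongr
      · rw [enorm_inv (by simp [Measure.real, ENNReal.toReal_eq_zero_iff, h1, h2]),
          Real.enorm_of_nonneg measureReal_nonneg, ofReal_measureReal h2]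
      · exact enorm_integral_le_lintegral_enorm _
    have h5 := sq_lintegral_le (μ.restrict (ball c (ρ / 2))) (f := fun x => ‖g y - g x‖ₑ)
      ((integrable_const _).sub hi).1.enorm
    rw [Measure.restrict_apply_univ] at h5
    refine (pow_le_pow_left' h4 2).trans ?_
    rw [mul_pow, mul_assoc]
    refine (mul_le_mul_right h5 _).trans ?_
    rw [sq, mul_assoc, ← mul_assoc _ (μ _), ENNReal.inv_mul_cancel h1 h2, one_mul,
      ← lintegral_const_mul' (ENNReal.ofReal (2 * ρ) ^ 2) _ (by finiteness)]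
    refine mul_le_mul_right ?_ _
    refine (setLIntegral_mono' measurableSet_ball fun x hx => ?_).trans (lintegral_mono_set hs)
    refine (pow_le_pow_left' (enorm_sub_le_seg isOpen_ball (convex_ball c ρ) hg (hs hx) hy) 2).trans ?_
    rw [mul_pow]
    gcongr
    · rw [← ofReal_norm]
      refine ENNReal.ofReal_le_ofReal ?_
      rw [← dist_eq_norm]
      linarith [dist_triangle_right y x c, mem_ball.1 hy, mem_ball.1 (hs hx)]
    · simpa using sq_lintegral_le (volume.restrict (Icc (0 : ℝ) 1))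
        (f := fun s => ‖fderiv ℝ g (x + s • (y - x))‖ₑ) (hφ.comp (by fun_prop)).aemeasurable
  refine (setLIntegral_mono' measurableSet_ball h3).trans ?_
  rw [lintegral_const_mul' _ _ (by finiteness), pc, mul_assoc (_ * _)]
  gcongr
  exact lint_seg μ (hφ.pow_const 2) measurableSet_ball (convex_ball c ρ)

end Crest.Agent.X261.Rel85
end
end

-- ▼ part X261/Rel85/Nl

/-!
# Row 261, REL (helper85): locally `L¹`-null families, change of charts
-/

set_option autoImplicit false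
set_option linter.unusedSectionVars false

noncomputable section

namespace Crest.Agent.X261.Rel85

open Set Filter Topology MeasureTheory Metric Module
open scoped ENNReal NNReal

section Chg

variable {E E' : Type*} [NormedAddCommGroup E] [NormedSpace ℝ E] [FiniteDimensional ℝ E]
  [MeasurableSpace E] [BorelSpace E] [NormedAddCommGroup E'] [NormedSpace ℝ E']
  [FiniteDimensional ℝ E'] [MeasurableSpace E'] [BorelSpace E']
  (μ : Measure E) [μ.IsAddHaarMeasure] (μ' : Measure E') [μ'.IsAddHaarMeasure]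

theorem meas_image_le (hd : finrank ℝ E = finrank ℝ E') (K : ℝ≥0) : ∃ C : ℝ≥0∞, C ≠ ⊤ ∧
    ∀ (ψ : E → E') (s : Set E), LipschitzOnWith K ψ s → μ' (ψ '' s) ≤ C * μ s := by
  obtain ⟨c1, h1⟩ : ∃ c : ℝ≥0, μ' = c • (μH[finrank ℝ E'] : Measure E') :=
    ⟨_, Measure.isAddLeftInvariant_eq_smul _ _⟩
  obtain ⟨c2, h2⟩ : ∃ c : ℝ≥0, (μH[finrank ℝ E] : Measure E) = c • μ :=
    ⟨_, Measure.isAddLeftInvariant_eq_smul _ _⟩
  refine ⟨c1 * ((K : ℝ≥0∞) ^ (finrank ℝ E : ℝ) * c2), by finiteness, fun ψ s h => ?_⟩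
  have h3 := h.hausdorffMeasure_image_le (d := finrank ℝ E) (by positivity)
  rw [h2] at h3
  rw [h1, Measure.smul_apply, ← hd, mul_assoc, mul_assoc]
  exact mul_le_mul_right h3 _

theorem lint_comp_le (hd : finrank ℝ E = finrank ℝ E') (K : ℝ≥0) : ∃ C : ℝ≥0∞, C ≠ ⊤ ∧
    ∀ (θ : E' → E) (ψ : E → E') (V : Set E'), MeasurableSet V → ContinuousOn θ V →
      (∀ z ∈ V, ψ (θ z) = z) → LipschitzOnWith K ψ (θ '' V) →
      ∀ F : E → ℝ≥0∞, ∫⁻ z in V, F (θ z) ∂μ' ≤ C * ∫⁻ z in θ '' V, F z ∂μ := by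
  obtain ⟨C, hC, h⟩ := meas_image_le μ μ' hd K
  refine ⟨C, hC, fun θ ψ V hV hθ hψ hL F => ?_⟩
  have h1 := hθ.measurableEmbedding hV (LeftInvOn.injOn hψ)
  rw [← lintegral_subtype_comap hV, ← smul_eq_mul, ← lintegral_smul_measure]
  refine (h1.lintegral_map F).symm.le.trans (lintegral_mono' (Measure.le_iff.2 fun s hs => ?_)
    le_rfl)
  rw [h1.map_apply, (MeasurableEmbedding.subtype_coe hV).comap_apply, Measure.smul_apply,
    Measure.restrict_apply hs]
  refine (measure_mono ?_).trans (h ψ _ (hL.mono inter_subset_right))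
  rintro _ ⟨z, hz, rfl⟩
  exact ⟨θ z, ⟨hz, z, z.2, rfl⟩, hψ z z.2⟩

omit [MeasurableSpace E] [BorelSpace E] [MeasurableSpace E'] [BorelSpace E'] in
theorem finrank_le_of_inv {θ : E' → E} {ψ : E → E'} {z : E'} (h1 : DifferentiableAt ℝ θ z)
    (h2 : DifferentiableAt ℝ ψ (θ z)) (h : ∀ᶠ y in 𝓝 z, ψ (θ y) = y) :
    finrank ℝ E' ≤ finrank ℝ E := by
  have h3 := (h2.hasFDerivAt.comp z h1.hasFDerivAt).unique
    ((hasFDerivAt_id z).congr_of_eventuallyEq h)
  refine LinearMap.finrank_le_finrank_of_injective (f := (fderiv ℝ θ z : E' →ₗ[ℝ] E))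
    (Function.LeftInverse.injective (g := fderiv ℝ ψ (θ z)) fun v => ?_)
  exact DFunLike.congr_fun h3 v

variable {M Ω H : Type*} [TopologicalSpace M] [NormedAddCommGroup H]

/-- the family `h` is `L¹`-null near `x`, in the chart `e` -/
def Nl (e : OpenPartialHomeomorph M E) (x : M) (h : Ω → ℕ → M → H) : Prop :=
  ∃ V ∈ 𝓝 (e x), ∀ g, Tendsto (fun k => ∫⁻ z in V, ‖h g k (e.symm z)‖ₑ ∂μ) atTop (𝓝 0)

/-- compatible charts at `x` -/
structure Cp (e : OpenPartialHomeomorph M E) (e' : OpenPartialHomeomorph M E') (x : M) : Prop where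
  mem : x ∈ e.source
  mem' : x ∈ e'.source
  sm : ContDiffAt ℝ 1 (fun z => e' (e.symm z)) (e x)
  sm' : ContDiffAt ℝ 1 (fun z => e (e'.symm z)) (e' x)

variable {μ μ'} {e : OpenPartialHomeomorph M E} {e' : OpenPartialHomeomorph M E'} {x : M}
  {h h' : Ω → ℕ → M → H}

theorem Cp.symm (c : Cp e e' x) : Cp e' e x := ⟨c.mem', c.mem, c.sm', c.sm⟩

theorem Cp.ev (c : Cp e e' x) :
    ∀ᶠ z in 𝓝 (e' x), z ∈ e'.target ∧ e'.symm z ∈ e.source := by
  refine (e'.open_target.eventually_mem (e'.map_source c.mem')).and ?_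
  refine (e'.continuousAt_symm (e'.map_source c.mem')).eventually ?_
  rw [e'.left_inv c.mem']
  exact e.open_source.mem_nhds c.mem

theorem Cp.le (c : Cp e e' x) : finrank ℝ E' ≤ finrank ℝ E := by
  refine finrank_le_of_inv (c.sm'.differentiableAt one_ne_zero)
    (ψ := fun z => e' (e.symm z)) ?_ (c.ev.mono fun z hz => ?_)
  · rw [e'.left_inv c.mem']; exact c.sm.differentiableAt one_ne_zero
  · rw [e.left_inv hz.2, e'.right_inv hz.1]

theorem Nl.trans (c : Cp e e' x) (hN : Nl μ e x h) : Nl μ' e' x h := by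
  obtain ⟨V, hV, h1⟩ := hN
  obtain ⟨K, t, ht, hK⟩ := c.sm.exists_lipschitzOnWith
  obtain ⟨C, hC, h2⟩ := lint_comp_le μ μ' (c.symm.le.antisymm c.le) K
  have h3 : Tendsto (fun z => e (e'.symm z)) (𝓝 (e' x)) (𝓝 (e x)) := by
    simpa [ContinuousAt, e'.left_inv c.mem'] using c.sm'.continuousAt
  obtain ⟨O, hO1, hO2, hO3⟩ := _root_.eventually_nhds_iff.1 (c.ev.and (h3.eventually (inter_mem hV ht)))
  refine ⟨O, hO2.mem_nhds hO3, fun g => ?_⟩
  have h4 := ENNReal.Tendsto.const_mul (a := C) (h1 g) (Or.inr hC)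
  rw [mul_zero] at h4
  refine tendsto_of_tendsto_of_tendsto_of_le_of_le tendsto_const_nhds h4 (fun _ => zero_le)
    fun k => ?_
  refine le_trans (le_of_eq (setLIntegral_congr_fun hO2.measurableSet fun z hz => ?_))
    ((h2 (fun z => e (e'.symm z)) (fun z => e' (e.symm z)) O hO2.measurableSet ?_ ?_ (hK.mono ?_)
      fun z => ‖h g k (e.symm z)‖ₑ).trans (mul_le_mul_right (lintegral_mono_set ?_) _))
  · simp only [e.left_inv (hO1 z hz).1.2]
  · exact e.continuousOn.comp (e'.continuousOn_symm.mono fun z hz => (hO1 z hz).1.1)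
      fun z hz => (hO1 z hz).1.2
  · exact fun z hz => by simp only [e.left_inv (hO1 z hz).1.2, e'.right_inv (hO1 z hz).1.1]
  · rintro _ ⟨z, hz, rfl⟩; exact (hO1 z hz).2.2
  · rintro _ ⟨z, hz, rfl⟩; exact (hO1 z hz).2.1

theorem Nl.ev (hN : Nl μ e x h) (hx : x ∈ e.source) : ∀ᶠ y in 𝓝 x, Nl μ e y h := by
  obtain ⟨V, hV, h1⟩ := hN
  exact ((e.continuousAt hx).eventually (eventually_mem_nhds_iff.2 hV)).mono
    fun y hy => ⟨V, hy, h1⟩

theorem Nl.congr (hN : Nl μ e x h) (hx : x ∈ e.source)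
    (hh : ∀ᶠ y in 𝓝 x, ∀ g k, h g k y = h' g k y) : Nl μ e x h' := by
  obtain ⟨V, hV, h1⟩ := hN
  have h2 : ∀ᶠ z in 𝓝 (e x), ∀ g k, h g k (e.symm z) = h' g k (e.symm z) :=
    (e.tendsto_symm hx).eventually hh
  obtain ⟨O, hO1, hO2, hO3⟩ := _root_.eventually_nhds_iff.1 (h2.and hV)
  refine ⟨O, hO2.mem_nhds hO3, fun g => tendsto_of_tendsto_of_tendsto_of_le_of_le
    tendsto_const_nhds (h1 g) (fun _ => zero_le) fun k => ?_⟩
  exact le_trans (le_of_eq (setLIntegral_congr_fun hO2.measurableSet fun z hz => by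
    simp only [(hO1 z hz).1])) (lintegral_mono_set fun z hz => (hO1 z hz).2)

end Chg

section Calc

variable {E H : Type*} [TopologicalSpace E] [MeasurableSpace E] [BorelSpace E] {μ : Measure E}
  [NormedAddCommGroup H]

/-- `L¹`-null sequences on a set -/
def Nu (μ : Measure E) (V : Set E) (F : ℕ → E → H) : Prop :=
  Tendsto (fun k => ∫⁻ z in V, ‖F k z‖ₑ ∂μ) atTop (𝓝 0)

variable {V V' : Set E} {F F' : ℕ → E → H}

theorem Nu.of_le {a : ℕ → ℝ≥0∞} (ha : Tendsto a atTop (𝓝 0))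
    (h : ∀ k, ∫⁻ z in V, ‖F k z‖ₑ ∂μ ≤ a k) : Nu μ V F :=
  tendsto_of_tendsto_of_tendsto_of_le_of_le tendsto_const_nhds ha (fun _ => zero_le) h

theorem Nu.mono (h : Nu μ V F) (hV : V' ⊆ V) : Nu μ V' F :=
  Nu.of_le h fun _ => lintegral_mono_set hV

theorem Nu.congr (h : Nu μ V F) (hV : MeasurableSet V) (h' : ∀ k, ∀ z ∈ V, F k z = F' k z) :
    Nu μ V F' :=
  Nu.of_le h fun k => le_of_eq (setLIntegral_congr_fun hV fun z hz => by simp only [h' k z hz])

theorem aem (hV : MeasurableSet V) {f : E → H} (hf : ContinuousOn f V) :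
    AEMeasurable (fun z => ‖f z‖ₑ) (μ.restrict V) :=
  (continuous_enorm.comp_continuousOn hf).aemeasurable hV

theorem Nu.add (h : Nu μ V F) (h' : Nu μ V F') (hV : MeasurableSet V)
    (hc : ∀ k, ContinuousOn (F k) V) : Nu μ V fun k z => F k z + F' k z := by
  have h1 := Tendsto.add h h'
  rw [add_zero] at h1
  refine Nu.of_le h1 fun k => ?_
  rw [← lintegral_add_left' (aem hV (hc k))]
  exact lintegral_mono fun z => enorm_add_le _ _

theorem Nu.neg (h : Nu μ V F) : Nu μ V fun k z => -F k z := by simpa only [Nu, enorm_neg] using h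

theorem Nu.sub (h : Nu μ V F) (h' : Nu μ V F') (hV : MeasurableSet V)
    (hc : ∀ k, ContinuousOn (F k) V) : Nu μ V fun k z => F k z - F' k z := by
  simpa only [sub_eq_add_neg] using h.add h'.neg hV hc


theorem Nu.sum {ι : Type*} (s : Finset ι) {F : ι → ℕ → E → H} (hV : MeasurableSet V)
    (h : ∀ j ∈ s, Nu μ V (F j)) (hc : ∀ j ∈ s, ∀ k, ContinuousOn (F j k) V) :
    Tendsto (fun k => ∫⁻ z in V, ∑ j ∈ s, ‖F j k z‖ₑ ∂μ) atTop (𝓝 0) := by
  have h1 := tendsto_finsetSum s h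
  rw [Finset.sum_const_zero] at h1
  exact h1.congr fun k => (lintegral_finsetSum' s fun j hj => aem hV (hc j hj k)).symm


theorem Nu.of_sq (hV : MeasurableSet V) (hμ : μ V ≠ ⊤) (hc : ∀ k, ContinuousOn (F k) V)
    (h : Tendsto (fun k => ∫⁻ z in V, ‖F k z‖ₑ ^ 2 ∂μ) atTop (𝓝 0)) : Nu μ V F := by
  have h1 := ENNReal.Tendsto.const_mul (a := μ V) h (Or.inr hμ)
  rw [mul_zero] at h1
  refine ENNReal.tendsto_nhds_zero.2 fun ε hε => ?_
  refine ((ENNReal.tendsto_nhds_zero.1 h1) (ε ^ 2) (by positivity)).mono fun k hk => ?_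
  have h2 := sq_lintegral_le (μ.restrict V) (aem hV (hc k))
  rw [Measure.restrict_apply_univ] at h2
  exact (ENNReal.pow_le_pow_left_iff two_ne_zero).1 (h2.trans hk)

end Calc

section Prod

variable {T K H : Type*} [NormedAddCommGroup T] [NormedSpace ℝ T] [FiniteDimensional ℝ T]
  [MeasurableSpace T] [BorelSpace T] [NormedAddCommGroup K] [NormedSpace ℝ K]
  [FiniteDimensional ℝ K] [MeasurableSpace K] [BorelSpace K]
  {μ : Measure T} [μ.IsAddHaarMeasure] {ν : Measure K} [ν.IsAddHaarMeasure] [NormedAddCommGroup H]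
  {B : Set T} {P P' : Set K} {D : ℕ → T → H}


theorem lint_fst (hB : MeasurableSet B) (hP : MeasurableSet P) {d : T → H}
    (hd : ContinuousOn d B) :
    ∫⁻ p in B ×ˢ P, ‖d p.1‖ₑ ∂μ.prod ν = (∫⁻ t in B, ‖d t‖ₑ ∂μ) * ν P := by
  rw [setLIntegral_prod _ (aem (f := fun p : T × K => d p.1) (hB.prod hP)
    (hd.comp continuousOn_fst fun p hp => hp.1))]
  simp only [setLIntegral_const]
  rw [lintegral_mul_const'' _ (aem hB hd)]


end Prod

end Crest.Agent.X261.Rel85
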